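import Vale.Agent.P139Z.NumP.Ball

/-! The cells for the profile conditions. -/

open Complex
open scoped ComplexConjugate

namespace Vale.Agent.P139Z.NumP

theorem cover {lo ζ : ℤ} {n : ℕ} (hn : 1 ≤ n) {t : ℝ} (h1 : sr lo ≤ t)
    (h2 : t ≤ sr (lo + 2 * n * ζ)) : ∃ i < n, |t - sr (lo + (2 * i + 1) * ζ)| ≤ sr ζ := by
  have hS := S_pos
  induction n, hn using Nat.le_induction with
  | base =>
    refine ⟨0, one_pos, abs_le.2 ⟨?_, ?_⟩⟩
    · have : sr (lo + (2 * (0 : ℕ) + 1) * ζ) = sr lo + sr ζ := by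
        simp only [sr]; push_cast; ring
      linarith
    · have : sr (lo + 2 * (1 : ℕ) * ζ) = sr (lo + (2 * (0 : ℕ) + 1) * ζ) + sr ζ := by
        simp only [sr]; push_cast; ring
      linarith
  | succ n hn ih =>
    rcases le_total t (sr (lo + 2 * n * ζ)) with h | h
    · obtain ⟨i, hi, h'⟩ := ih h
      exact ⟨i, by omega, h'⟩
    · refine ⟨n, by omega, abs_le.2 ⟨?_, ?_⟩⟩
      · have : sr (lo + (2 * n + 1) * ζ) = sr (lo + 2 * n * ζ) + sr ζ := by
          simp only [sr]; push_cast; ring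
        linarith
      · have : sr (lo + 2 * (n + 1 : ℕ) * ζ) = sr (lo + (2 * n + 1) * ζ) + sr ζ := by
          simp only [sr]; push_cast; ring
        linarith

/-- One cell. -/
def cell (cond : ℤ → ℤ → ℤ → Bool) (b₀ ρ Z₀ ζ : ℤ) : Bool :=
  match run (-2500000000000) (-b₀) ρ Z₀ ζ 6250000000000 20 (-10000000000000) 0 10000000000000 with
  | none => false
  | some s => cond s.1 s.2.1 s.2.2

open Alg in
theorem cell_sound {cond : ℤ → ℤ → ℤ → Bool} {b₀ ρ Z₀ ζ : ℤ} (hc : cell cond b₀ ρ Z₀ ζ = true)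
    {β Z : ℝ} (hβ : |β| ≤ 1) (hZ0 : 0 < Z) (h1 : |β - sr b₀| ≤ sr ρ) (h2 : |Z - sr Z₀| ≤ sr ζ)
    {P Y : ℕ → ℂ} (hL : Lev (-I * β) 6 Z P Y) :
    ∃ x y r : ℤ, cond x y r = true ∧ ‖P 0 + 5 / 2 * Y 0 - sc x y * Y 0‖ ≤ sr r * ‖Y 0‖ := by
  have hbb : bb 6 = 5 / 2 := by norm_num [bb]
  unfold cell at hc
  split at hc
  · exact absurd hc (by simp)
  · rename_i s hs
    refine ⟨s.1, s.2.1, s.2.2, hc, ?_⟩
    have h0 := start hL le_rfl hZ0 20 (M := 10000000000000) (by rw [hbb]; simp; norm_num) (by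
      rw [hbb]
      have : β ^ 2 ≤ 1 := by nlinarith [abs_le.1 hβ]
      simp [sr, S]
      nlinarith)
    have h3 := run_sound hL (cx := s.1) (cy := s.2.1) (r₀ := s.2.2)
      (by rw [hbb]; norm_num [sr, S]) h2 (ax := -2500000000000) (ay := -b₀) (ρ := ρ) (by
        have : aa (-I * β) 6 0 - sc (-2500000000000) (-b₀) = -I * ((β - sr b₀ : ℝ) : ℂ) := by
          apply Complex.ext
          · simp [aa_re, hbb, sc, sr, S]
            norm_num
          · simp [aa_im, sc, sr, neg_div]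
            ring
        rw [this, norm_mul, norm_neg, norm_I, one_mul, norm_real, Real.norm_eq_abs]
        exact h1) 20 hs h0 (by norm_num)
    simpa [pp, hbb] using h3

/-- A grid of cells. -/
def grid (cond : ℤ → ℤ → ℤ → Bool) (b₀ ρ : ℤ) (m : ℕ) (Z₀ ζ : ℤ) (n : ℕ) : Bool :=
  (List.range m).all fun i => (List.range n).all fun j =>
    cell cond (b₀ + (2 * i + 1) * ρ) ρ (Z₀ + (2 * j + 1) * ζ) ζ

theorem grid_sound {cond : ℤ → ℤ → ℤ → Bool} {b₀ ρ Z₀ ζ : ℤ} {m n : ℕ}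
    (hc : grid cond b₀ ρ m Z₀ ζ n = true) (hm : 1 ≤ m) (hn : 1 ≤ n)
    {β Z : ℝ} (hβ : |β| ≤ 1) (hZ0 : 0 < Z) (h1 : sr b₀ ≤ β) (h2 : β ≤ sr (b₀ + 2 * m * ρ))
    (h3 : sr Z₀ ≤ Z) (h4 : Z ≤ sr (Z₀ + 2 * n * ζ)) {P Y : ℕ → ℂ} (hL : Lev (-I * β) 6 Z P Y) :
    ∃ x y r : ℤ, cond x y r = true ∧ ‖P 0 + 5 / 2 * Y 0 - sc x y * Y 0‖ ≤ sr r * ‖Y 0‖ := by
  obtain ⟨i, hi, hi'⟩ := cover hm h1 h2
  obtain ⟨j, hj, hj'⟩ := cover hn h3 h4
  simp only [grid, List.all_eq_true, List.mem_range] at hc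
  exact cell_sound (hc i hi j hj) hβ hZ0 hi' hj' hL

theorem g_all : grid (fun _ _ _ => true) 334730000000 50000000 1 2704800000000 300000000 1
    = true := by decide +kernel

theorem g_left : grid (fun x _ r => decide (2500001000000 ≤ x - r)) 334730000000 10000000 5
    2704800000000 10000000 5 = true := by decide +kernel

theorem g_right : grid (fun x _ r => decide (x + r ≤ 2499999000000)) 334730000000 10000000 5
    2705300000000 10000000 5 = true := by decide +kernel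

theorem g_low : grid (fun _ y r => decide (1000000 ≤ y - r)) 334729999999 1 1
    2704800000000 10000000 30 = true := by decide +kernel

theorem g_high : grid (fun _ y r => decide (y + r ≤ -1000000)) 334829999999 1 1
    2704800000000 10000000 30 = true := by decide +kernel

theorem g_mono : grid (fun x _ r => decide (x + r ≤ 2500000000000)) 334730000000 50000000 1
    2800000000000 20000000000 30 = true := by decide +kernel

end Vale.Agent.P139Z.NumP
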