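import Vale.Agent.P139Z.Alg

/-! Monotonicity of the outgoing solution for large `Z`. -/

open Complex
open scoped ComplexConjugate

namespace Vale.Agent.P139Z.NumP

theorem nsq (z : ℂ) : ‖z‖ ^ 2 = z.re ^ 2 + z.im ^ 2 := by
  rw [← Complex.normSq_eq_norm_sq, Complex.normSq_apply]
  ring

/-- The image of an upper half-plane. -/
theorem half_step {p y y' q a C : ℂ} {h h₀ : ℝ} (hy : y' = p + a * y) (hq : q - a * y' = C * y)
    (H : h₀ * ‖y'‖ ^ 2 ≤ (conj y' * q).im) (hh : 0 < h) (hh' : h ≤ h₀ - a.im) :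
    ‖p - (-a - I * C / (2 * h)) * y‖ ≤ ‖C‖ / (2 * h) * ‖y‖ := by
  have e1 : p - (-a - I * C / (2 * h)) * y = y' + I * (C * y) * ((1 / (2 * h) : ℝ) : ℂ) := by
    rw [hy]
    push_cast
    ring
  have e2 : ‖C‖ / (2 * h) * ‖y‖ = ‖C * y‖ * (1 / (2 * h)) := by
    rw [norm_mul]
    ring
  have H' : h * ‖y'‖ ^ 2 ≤ (conj y' * (C * y)).im := by
    rw [← hq]
    have : (conj y' * (q - a * y')).im = (conj y' * q).im - a.im * ‖y'‖ ^ 2 := by
      simp only [nsq, mul_re, mul_im, sub_re, sub_im, conj_re, conj_im]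
      ring
    rw [this]
    nlinarith [sq_nonneg ‖y'‖]
  rw [e1, e2]
  generalize C * y = w at *
  refine abs_le_of_sq_le_sq' ?_ (by positivity) |>.2
  obtain ⟨t, ht⟩ : ∃ t, t = 1 / (2 * h) := ⟨_, rfl⟩
  rw [← ht]
  have ht0 : 0 < t := by rw [ht]; positivity
  have ht1 : 2 * h * t = 1 := by rw [ht]; field_simp
  simp only [mul_pow, nsq, mul_re, mul_im, add_re, add_im, conj_re, conj_im, I_re, I_im, ofReal_re,
    ofReal_im] at H' ⊢
  have h3 := mul_le_mul_of_nonneg_left H' (by positivity : 0 ≤ 2 * t)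
  have h4 : 2 * t * (h * (y'.re ^ 2 + y'.im ^ 2)) = y'.re ^ 2 + y'.im ^ 2 := by
    linear_combination (y'.re ^ 2 + y'.im ^ 2) * ht1
  nlinarith

theorem ball_im {p y c : ℂ} {r : ℝ} (h : ‖p - c * y‖ ≤ r * ‖y‖) :
    (c.im - r) * ‖y‖ ^ 2 ≤ (conj y * p).im ∧ (conj y * p).im ≤ (c.im + r) * ‖y‖ ^ 2 ∧
      (c.re - r) * ‖y‖ ^ 2 ≤ (conj y * p).re ∧ (conj y * p).re ≤ (c.re + r) * ‖y‖ ^ 2 := by
  have h1 : ‖conj y * (p - c * y)‖ ≤ r * ‖y‖ ^ 2 := by
    rw [norm_mul, norm_conj]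
    nlinarith [mul_le_mul_of_nonneg_left h (norm_nonneg y)]
  have h2 := abs_le.1 ((abs_im_le_norm _).trans h1)
  have h3 := abs_le.1 ((abs_re_le_norm _).trans h1)
  have e1 : (conj y * (p - c * y)).im = (conj y * p).im - c.im * ‖y‖ ^ 2 := by
    simp only [nsq, mul_re, mul_im, sub_re, sub_im, conj_re, conj_im]
    ring
  have e2 : (conj y * (p - c * y)).re = (conj y * p).re - c.re * ‖y‖ ^ 2 := by
    simp only [nsq, mul_re, mul_im, sub_re, sub_im, conj_re, conj_im]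
    ring
  rw [e1] at h2
  rw [e2] at h3
  refine ⟨by linarith [h2.1], by linarith [h2.2], by linarith [h3.1], by linarith [h3.2]⟩

open Alg in
theorem far_step {β Z : ℝ} {P Y : ℕ → ℂ} (hL : Lev (-I * β) 6 Z P Y) (n : ℕ) {D h u : ℝ}
    (H : -D * ‖Y (n + 1)‖ ^ 2 ≤ (conj (Y (n + 1)) * pp 6 P Y (n + 1)).im) (hh : 0 < h)
    (hh' : h ≤ Z - D + β) (hu0 : 0 ≤ u)
    (hu : (25 / 4 - ((n : ℝ) - 5 / 2) ^ 2 + β ^ 2) ^ 2 + (2 * ((n : ℝ) - 5 / 2) * β) ^ 2 ≤ u ^ 2) :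
    (β - (25 / 4 - ((n : ℝ) - 5 / 2) ^ 2 + β ^ 2) / (2 * h) - u / (2 * h)) * ‖Y n‖ ^ 2
        ≤ (conj (Y n) * pp 6 P Y n).im ∧
      (conj (Y n) * pp 6 P Y n).re
        ≤ (5 / 2 - n + 2 * ((n : ℝ) - 5 / 2) * β / (2 * h) + u / (2 * h)) * ‖Y n‖ ^ 2 := by
  have hbb : bb 6 = 5 / 2 := by norm_num [bb]
  have are : (aa (-I * β) 6 n).re = n - 5 / 2 := by simp [aa_re, hbb]
  have aim : (aa (-I * β) 6 n).im = -β := by simp [aa_im]
  obtain ⟨C, hC⟩ : ∃ C : ℂ, C = (bb 6 : ℂ) ^ 2 - aa (-I * β) 6 n ^ 2 := ⟨_, rfl⟩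
  have Cre : C.re = 25 / 4 - ((n : ℝ) - 5 / 2) ^ 2 + β ^ 2 := by
    rw [hC, ← ofReal_pow, hbb, pow_two (aa _ _ _)]
    simp only [sub_re, ofReal_re, mul_re, are, aim]
    ring
  have Cim : C.im = 2 * ((n : ℝ) - 5 / 2) * β := by
    rw [hC, ← ofReal_pow, hbb, pow_two (aa _ _ _)]
    simp only [sub_im, ofReal_im, mul_im, are, aim]
    ring
  have hCu : ‖C‖ ≤ u := by
    refine abs_le_of_sq_le_sq' ?_ hu0 |>.2
    rw [nsq, Cre, Cim]
    exact hu
  have key := half_step (q := pp 6 P Y (n + 1) + I * Z * Y (n + 1)) (C := C) (h := h) (h₀ := Z - D)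
    (rec_y hL n) (by rw [rec_p hL n, rec_y hL n, hC]; ring) (by
      have : (conj (Y (n + 1)) * (pp 6 P Y (n + 1) + I * Z * Y (n + 1))).im
          = (conj (Y (n + 1)) * pp 6 P Y (n + 1)).im + Z * ‖Y (n + 1)‖ ^ 2 := by
        simp only [nsq, mul_re, mul_im, add_re, add_im, conj_re, conj_im, I_re, I_im, ofReal_re,
          ofReal_im]
        ring
      rw [this]
      linarith) hh (by rw [aim]; linarith)
  have key' : ‖pp 6 P Y n - (-aa (-I * β) 6 n - I * C / (2 * h)) * Y n‖ ≤ u / (2 * h) * ‖Y n‖ :=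
    key.trans (by gcongr)
  have e : (2 * h : ℂ) = ((2 * h : ℝ) : ℂ) := by push_cast; ring
  have cim : (-aa (-I * β) 6 n - I * C / (2 * h)).im
      = β - (25 / 4 - ((n : ℝ) - 5 / 2) ^ 2 + β ^ 2) / (2 * h) := by
    rw [e, sub_im, neg_im, aim, div_ofReal_im, I_mul_im, Cre, neg_neg]
  have cre : (-aa (-I * β) 6 n - I * C / (2 * h)).re
      = 5 / 2 - n + 2 * ((n : ℝ) - 5 / 2) * β / (2 * h) := by
    rw [e, sub_re, neg_re, are, div_ofReal_re, I_mul_re, Cim]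
    ring
  obtain ⟨h1, -, -, h4⟩ := ball_im key'
  rw [cim] at h1
  rw [cre] at h4
  exact ⟨h1, h4⟩

open Alg in
theorem far_mono {β Z : ℝ} (hβ : InB β) (hZ : 4 ≤ Z) {P Y : ℕ → ℂ} (hL : Lev (-I * β) 6 Z P Y) :
    (conj (Y 0) * P 0).re ≤ 0 := by
  have b1 : (0.33473 : ℝ) ≤ β := hβ.1
  have b2 : β ≤ (0.33483 : ℝ) := hβ.2
  norm_num at b1 b2
  have q1 : 112 / 1000 ≤ β ^ 2 := by nlinarith
  have q2 : β ^ 2 ≤ 1122 / 10000 := by nlinarith
  have hbb : bb 6 = 5 / 2 := by norm_num [bb]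
  have f4 := hL.flux_nonneg 4 (by simp; norm_num)
  unfold flux at f4
  have s3 := (far_step hL 3 (D := Z / 2) (h := 233 / 100) (u := 6123 / 1000) (by rw [J_eq]; linarith)
    (by norm_num) (by linarith) (by norm_num) (by push_cast; nlinarith)).1
  have s2 := (far_step hL 2 (D := 23 / 10) (h := 203 / 100) (u := 6123 / 1000)
    (le_trans (mul_le_mul_of_nonneg_right (by norm_num; linarith) (sq_nonneg _)) s3)
    (by norm_num) (by linarith) (by norm_num) (by push_cast; nlinarith)).1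
  obtain ⟨s1, r1⟩ := far_step hL 1 (D := 27 / 10) (h := 163 / 100) (u := 424 / 100)
    (le_trans (mul_le_mul_of_nonneg_right (by norm_num; linarith) (sq_nonneg _)) s2)
    (by norm_num) (by linarith) (by norm_num) (by push_cast; nlinarith)
  have s1' : -(23 / 10) * ‖Y 1‖ ^ 2 ≤ (conj (Y 1) * pp 6 P Y 1).im :=
    le_trans (mul_le_mul_of_nonneg_right (by norm_num; linarith) (sq_nonneg _)) s1
  have r1' : (conj (Y 1) * pp 6 P Y 1).re ≤ 3 * ‖Y 1‖ ^ 2 :=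
    r1.trans (mul_le_mul_of_nonneg_right (by norm_num; linarith) (sq_nonneg _))
  have e0 : Y 1 = P 0 + -I * β * Y 0 := by simpa using hL.recY 0
  have e1 : pp 6 P Y 1 = (-I * β - 5) * P 0 - I * Z * Y 1 + 5 / 2 * Y 1 := by
    have := hL.recP 0
    simp only [pp, hbb]
    rw [show P 1 = P (0 + 1) from rfl, this, e0]
    push_cast
    ring
  rw [e1] at s1' r1'
  have h5 : (5 / 2 : ℂ) = ((5 / 2 : ℝ) : ℂ) := by push_cast; ring
  rw [h5] at s1' r1'
  have e2 : (conj (Y 1) * P 0).im = β * (conj (Y 0) * P 0).re := by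
    rw [e0]
    simp only [mul_re, mul_im, add_re, add_im, conj_re, conj_im, I_re, I_im, ofReal_re,
      ofReal_im, neg_re, neg_im, map_add, map_mul, map_neg]
    ring
  have e3 : (conj (Y 1) * P 0).im ≤ 0 := by
    generalize Y 1 = y at *
    generalize P 0 = p at *
    simp only [nsq, mul_re, mul_im, add_re, add_im, sub_re, sub_im, conj_re, conj_im, I_re, I_im,
      ofReal_re, ofReal_im, neg_re, neg_im, re_ofNat, im_ofNat] at s1' r1' ⊢
    have hy : 0 ≤ y.re ^ 2 + y.im ^ 2 := by positivity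
    have h6 : (4 : ℝ) * (y.re ^ 2 + y.im ^ 2) ≤ Z * (y.re ^ 2 + y.im ^ 2) := by gcongr
    have h7 : β * (y.re ^ 2 + y.im ^ 2) ≤ 1 * (y.re ^ 2 + y.im ^ 2) := by gcongr; linarith
    have h8 := mul_le_mul_of_nonneg_left r1' (by linarith : 0 ≤ β)
    have h9 : (25 + β ^ 2) * (y.re * p.im + -y.im * p.re) ≤ (25 + β ^ 2) * 0 := by nlinarith
    exact le_of_mul_le_mul_left h9 (by positivity)
  rw [e2] at e3
  by_contra hneg
  nlinarith [mul_pos (by linarith : 0 < β) (not_le.1 hneg)]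

end Vale.Agent.P139Z.NumP
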