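import Vale.Agent.P139Z.Alg

/-! Ball arithmetic for the backward level recursion, with integer fixed-point numbers. -/

open Complex
open scoped ComplexConjugate

namespace Vale.Agent.P139Z.NumP

theorem back_step {p y p' y' a a₀ c c' : ℂ} {b2 Z Z₀ ζ ρ r r' d u₁ u₂ u₃ : ℝ}
    (hy : y' = p + a * y) (hp : p' + I * Z * y' = a * p + b2 * y)
    (h : ‖p' - c' * y'‖ ≤ r' * ‖y'‖) (hr' : 0 ≤ r') (hZ : |Z - Z₀| ≤ ζ) (ha : ‖a - a₀‖ ≤ ρ)
    (hd : d ≤ ‖a₀ - (c' + I * Z₀)‖)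
    (h1 : ‖(a₀ - (c' + I * Z₀)) * c - ((c' + I * Z₀) * a₀ - b2)‖ ≤ u₁)
    (h2 : ‖c - (c' + I * Z₀)‖ ≤ u₂) (h3 : ‖c + a₀‖ ≤ u₃) (hpos : ρ + (r' + ζ) < d)
    (hr : u₁ + ρ * u₂ + (r' + ζ) * (u₃ + ρ) ≤ r * (d - ρ - (r' + ζ))) :
    ‖p - c * y‖ ≤ r * ‖y‖ := by
  obtain ⟨k, hk⟩ : ∃ k, k = c' + I * Z₀ := ⟨_, rfl⟩
  rw [← hk] at hd h1 h2
  obtain ⟨e, he⟩ : ∃ e, e = p - c * y := ⟨_, rfl⟩
  rw [← he]
  have hζ : 0 ≤ ζ := (abs_nonneg _).trans hZ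
  have hρ : 0 ≤ ρ := (norm_nonneg _).trans ha
  have E1 : (a - k) * e = (p' - c' * y') + I * ((Z - Z₀ : ℝ) : ℂ) * y'
      - (((a₀ - k) * c - (k * a₀ - b2)) + (a - a₀) * (c - k)) * y := by
    rw [he, hk]
    push_cast
    linear_combination (c' + I * Z₀) * hy - hp
  have N1 : ‖I * ((Z - Z₀ : ℝ) : ℂ) * y'‖ ≤ ζ * ‖y'‖ := by
    rw [norm_mul, norm_mul, norm_I, one_mul, norm_real, Real.norm_eq_abs]
    gcongr
  have N2 : ‖(((a₀ - k) * c - (k * a₀ - b2)) + (a - a₀) * (c - k)) * y‖ ≤ (u₁ + ρ * u₂) * ‖y‖ := by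
    rw [norm_mul]
    gcongr
    refine (norm_add_le _ _).trans (add_le_add h1 ?_)
    rw [norm_mul]
    gcongr
  have N3 : ‖y'‖ ≤ ‖e‖ + (u₃ + ρ) * ‖y‖ := by
    have : y' = e + ((c + a₀) + (a - a₀)) * y := by rw [hy, he]; ring
    rw [this]
    refine (norm_add_le _ _).trans (add_le_add le_rfl ?_)
    rw [norm_mul]
    gcongr
    exact (norm_add_le _ _).trans (add_le_add h3 ha)
  have N4 : (d - ρ) * ‖e‖ ≤ ‖(a - k) * e‖ := by
    rw [norm_mul]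
    gcongr
    have : ‖a₀ - k‖ ≤ ‖a - k‖ + ‖a - a₀‖ := by
      have e2 : a₀ - k = (a - k) - (a - a₀) := by ring
      rw [e2]
      exact norm_sub_le _ _
    linarith
  have N5 : ‖(a - k) * e‖ ≤ (r' + ζ) * ‖y'‖ + (u₁ + ρ * u₂) * ‖y‖ := by
    rw [E1]
    refine (norm_sub_le _ _).trans (add_le_add ((norm_add_le _ _).trans ?_) N2)
    linarith
  have N6 : (r' + ζ) * ‖y'‖ ≤ (r' + ζ) * (‖e‖ + (u₃ + ρ) * ‖y‖) := by gcongr
  have N7 : (u₁ + ρ * u₂ + (r' + ζ) * (u₃ + ρ)) * ‖y‖ ≤ r * (d - ρ - (r' + ζ)) * ‖y‖ := by gcongr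
  have N8 : (d - ρ - (r' + ζ)) * ‖e‖ ≤ (d - ρ - (r' + ζ)) * (r * ‖y‖) := by linarith
  exact le_of_mul_le_mul_left N8 (by linarith)

/-- The scale. -/
def S : ℤ := 1000000000000

/-- A scaled real number. -/
noncomputable def sr (x : ℤ) : ℝ := (x : ℝ) / (S : ℝ)

/-- A scaled complex number. -/
noncomputable def sc (x y : ℤ) : ℂ := ⟨sr x, sr y⟩

theorem S_pos : (0 : ℝ) < (S : ℝ) := by norm_num [S]

theorem norm_le_of_sq {z : ℂ} {u : ℝ} (hu : 0 ≤ u) (h : z.re ^ 2 + z.im ^ 2 ≤ u ^ 2) : ‖z‖ ≤ u := by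
  refine abs_le_of_sq_le_sq' ?_ hu |>.2
  rw [← Complex.normSq_eq_norm_sq, Complex.normSq_apply]
  nlinarith

theorem le_norm_of_sq {z : ℂ} {u : ℝ} (h : u ^ 2 ≤ z.re ^ 2 + z.im ^ 2) : u ≤ ‖z‖ := by
  refine abs_le_of_sq_le_sq' ?_ (norm_nonneg _) |>.2
  rw [← Complex.normSq_eq_norm_sq, Complex.normSq_apply]
  nlinarith

/-- Newton iteration for the square root. -/
def newton : ℕ → ℕ → ℕ → ℕ
  | 0, _, x => x
  | f + 1, n, x => newton f n ((x + n / x) / 2)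

/-- An approximate square root. -/
def isq (n : ℤ) : ℤ := (newton 9 n.toNat (2 ^ (n.toNat.log2 / 2 + 1)) : ℕ)

/-- The inequalities that are checked in one step. -/
def chk (kx ky R ax ay ρ b2 cx cy r d u₂ u₃ : ℤ) : Bool :=
  decide (d * d ≤ (ax - kx) * (ax - kx) + (ay - ky) * (ay - ky)) &&
  decide ((cx - kx) * (cx - kx) + (cy - ky) * (cy - ky) ≤ u₂ * u₂) &&
  decide ((cx + ax) * (cx + ax) + (cy + ay) * (cy + ay) ≤ u₃ * u₃) &&
  decide (0 ≤ u₂) && decide (0 ≤ u₃) && decide (0 ≤ r) && decide (ρ + R < d) &&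
  decide (|(ax - kx) * cx - (ay - ky) * cy - (kx * ax - ky * ay - b2 * S)|
    + |(ax - kx) * cy + (ay - ky) * cx - (kx * ay + ky * ax)| + ρ * u₂ + R * (u₃ + ρ)
      ≤ r * (d - ρ - R))

theorem chk_sound {x y' r' Z₀ ζ ax ay ρ b2 cx cy r d u₂ u₃ : ℤ}
    (hc : chk x (y' + Z₀) (r' + ζ) ax ay ρ b2 cx cy r d u₂ u₃ = true) {p y p₁ y₁ a : ℂ} {Z : ℝ}
    (hy : y₁ = p + a * y) (hp : p₁ + I * Z * y₁ = a * p + (sr b2 : ℝ) * y)
    (h : ‖p₁ - sc x y' * y₁‖ ≤ sr r' * ‖y₁‖) (hr' : 0 ≤ r') (hZ : |Z - sr Z₀| ≤ sr ζ)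
    (ha : ‖a - sc ax ay‖ ≤ sr ρ) : ‖p - sc cx cy * y‖ ≤ sr r * ‖y‖ ∧ 0 ≤ r := by
  simp only [chk, Bool.and_eq_true, decide_eq_true_eq] at hc
  obtain ⟨⟨⟨⟨⟨⟨⟨c1, c2⟩, c3⟩, c4⟩, c5⟩, c6⟩, c7⟩, c8⟩ := hc
  have hS := S_pos
  have hS2 : (0 : ℝ) < (S : ℝ) ^ 2 := by positivity
  refine ⟨back_step (d := sr d) (u₂ := sr u₂) (u₃ := sr u₃)
    (u₁ := ((|(ax - x) * cx - (ay - (y' + Z₀)) * cy - (x * ax - (y' + Z₀) * ay - b2 * S)|
      + |(ax - x) * cy + (ay - (y' + Z₀)) * cx - (x * ay + (y' + Z₀) * ax)| : ℤ) : ℝ) / (S : ℝ) ^ 2)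
    hy hp h (div_nonneg (by exact_mod_cast hr') hS.le) hZ ha ?_ ?_ ?_ ?_ ?_ ?_, c6⟩
  · refine le_norm_of_sq ?_
    have : ((d * d : ℤ) : ℝ) ≤ ((ax - x) * (ax - x) + (ay - (y' + Z₀)) * (ay - (y' + Z₀)) : ℤ) := by
      exact_mod_cast c1
    push_cast at this
    simp only [sc, sr, sub_re, add_re, mul_re, I_re, I_im, ofReal_re, ofReal_im, sub_im, add_im,
      mul_im]
    field_simp
    linarith
  · refine (norm_le_abs_re_add_abs_im _).trans (le_of_eq ?_)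
    simp only [sc, sr, sub_re, add_re, mul_re, I_re, I_im, ofReal_re, ofReal_im, sub_im, add_im,
      mul_im]
    push_cast
    rw [add_div, ← abs_of_pos hS2, ← abs_div, ← abs_div]
    congr 2 <;> field_simp <;> ring
  · refine norm_le_of_sq (div_nonneg (by exact_mod_cast c4) hS.le) ?_
    have : (((cx - x) * (cx - x) + (cy - (y' + Z₀)) * (cy - (y' + Z₀)) : ℤ) : ℝ) ≤ (u₂ * u₂ : ℤ) := by
      exact_mod_cast c2
    push_cast at this
    simp only [sc, sr, sub_re, add_re, mul_re, I_re, I_im, ofReal_re, ofReal_im, sub_im, add_im,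
      mul_im]
    field_simp
    linarith
  · refine norm_le_of_sq (div_nonneg (by exact_mod_cast c5) hS.le) ?_
    have : (((cx + ax) * (cx + ax) + (cy + ay) * (cy + ay) : ℤ) : ℝ) ≤ (u₃ * u₃ : ℤ) := by
      exact_mod_cast c3
    push_cast at this
    simp only [sc, sr, add_re, add_im]
    field_simp
    linarith
  · have : ((ρ + (r' + ζ) : ℤ) : ℝ) < d := by exact_mod_cast c7
    push_cast at this
    simp only [sr]
    field_simp
    linarith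
  · have : (((|(ax - x) * cx - (ay - (y' + Z₀)) * cy - (x * ax - (y' + Z₀) * ay - b2 * S)|
      + |(ax - x) * cy + (ay - (y' + Z₀)) * cx - (x * ay + (y' + Z₀) * ax)| : ℤ)
        + ρ * u₂ + (r' + ζ) * (u₃ + ρ) : ℤ) : ℝ) ≤ (r * (d - ρ - (r' + ζ)) : ℤ) := by
      exact_mod_cast c8
    generalize (|(ax - x) * cx - (ay - (y' + Z₀)) * cy - (x * ax - (y' + Z₀) * ay - b2 * S)|
      + |(ax - x) * cy + (ay - (y' + Z₀)) * cx - (x * ay + (y' + Z₀) * ax)| : ℤ) = u at this ⊢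
    push_cast at this
    simp only [sr]
    field_simp
    linarith

/-- One backward step. -/
def step (x y r ax ay ρ Z₀ ζ b2 : ℤ) : Option (ℤ × ℤ × ℤ) :=
  let ky := y + Z₀
  let R := r + ζ
  let dx := ax - x
  let dy := ay - ky
  let nx := x * ax - ky * ay - b2 * S
  let ny := x * ay + ky * ax
  let q := dx * dx + dy * dy
  let cx := (nx * dx + ny * dy) / q
  let cy := (ny * dx - nx * dy) / q
  let u₂ := isq ((cx - x) * (cx - x) + (cy - ky) * (cy - ky)) + 2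
  let u₃ := isq ((cx + ax) * (cx + ax) + (cy + ay) * (cy + ay)) + 2
  let d := isq q - 2
  let r₁ := (|dx * cx - dy * cy - nx| + |dx * cy + dy * cx - ny| + ρ * u₂ + R * (u₃ + ρ))
    / (d - ρ - R) + 1
  if chk x ky R ax ay ρ b2 cx cy r₁ d u₂ u₃ then some (cx, cy, r₁) else none

theorem step_sound {x y' r' Z₀ ζ ax ay ρ b2 cx cy r : ℤ}
    (hc : step x y' r' ax ay ρ Z₀ ζ b2 = some (cx, cy, r)) {p y p₁ y₁ a : ℂ} {Z : ℝ}
    (hy : y₁ = p + a * y) (hp : p₁ + I * Z * y₁ = a * p + (sr b2 : ℝ) * y)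
    (h : ‖p₁ - sc x y' * y₁‖ ≤ sr r' * ‖y₁‖) (hr' : 0 ≤ r') (hZ : |Z - sr Z₀| ≤ sr ζ)
    (ha : ‖a - sc ax ay‖ ≤ sr ρ) : ‖p - sc cx cy * y‖ ≤ sr r * ‖y‖ ∧ 0 ≤ r := by
  unfold step at hc
  simp only [Option.ite_none_right_eq_some, Option.some.injEq, Prod.mk.injEq] at hc
  obtain ⟨h0, rfl, rfl, rfl⟩ := hc
  exact chk_sound h0 hy hp h hr' hZ ha

/-- The backward recursion from the level `n` to the level `0`; `ax + i ay` is the centre of the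
parameter at the level `0`. -/
def run (ax ay ρ Z₀ ζ b2 : ℤ) : ℕ → ℤ → ℤ → ℤ → Option (ℤ × ℤ × ℤ)
  | 0, x, y, r => some (x, y, r)
  | n + 1, x, y, r =>
    (step x y r (ax + n * S) ay ρ Z₀ ζ b2).bind fun s => run ax ay ρ Z₀ ζ b2 n s.1 s.2.1 s.2.2

theorem run_zero (ax ay ρ Z₀ ζ b2 x y r : ℤ) : run ax ay ρ Z₀ ζ b2 0 x y r = some (x, y, r) := rfl

theorem run_succ (ax ay ρ Z₀ ζ b2 x y r : ℤ) (n : ℕ) : run ax ay ρ Z₀ ζ b2 (n + 1) x y r =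
    (step x y r (ax + n * S) ay ρ Z₀ ζ b2).bind
      fun s => run ax ay ρ Z₀ ζ b2 n s.1 s.2.1 s.2.2 := by
  rw [run]

open Alg in
theorem run_sound {A : ℂ} {B : ℕ} {Z : ℝ} {P Y : ℕ → ℂ} (hL : Lev A B Z P Y)
    {ax ay ρ Z₀ ζ b2 : ℤ} (hb : bb B ^ 2 = sr b2) (hZ : |Z - sr Z₀| ≤ sr ζ)
    (ha : ‖aa A B 0 - sc ax ay‖ ≤ sr ρ) (n : ℕ) {x y r cx cy r₀ : ℤ}
    (hc : run ax ay ρ Z₀ ζ b2 n x y r = some (cx, cy, r₀))
    (h : ‖pp B P Y n - sc x y * Y n‖ ≤ sr r * ‖Y n‖) (hr : 0 ≤ r) :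
    ‖pp B P Y 0 - sc cx cy * Y 0‖ ≤ sr r₀ * ‖Y 0‖ := by
  induction n generalizing x y r with
  | zero =>
    rw [run_zero] at hc
    simp only [Option.some.injEq, Prod.mk.injEq] at hc
    obtain ⟨rfl, rfl, rfl⟩ := hc
    exact h
  | succ n ih =>
    rw [run_succ] at hc
    cases hs : step x y r (ax + n * S) ay ρ Z₀ ζ b2 with
    | none =>
      rw [hs] at hc
      exact absurd hc (by simp)
    | some s =>
      rw [hs] at hc
      have ha' : ‖aa A B n - sc (ax + n * S) ay‖ ≤ sr ρ := by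
        have : aa A B n - sc (ax + n * S) ay = aa A B 0 - sc ax ay := by
          have hS := S_pos
          apply Complex.ext
          · simp only [sub_re, aa_re, sc, sr]
            push_cast
            field_simp
            ring
          · simp only [sub_im, aa_im, sc]
        rw [this]
        exact ha
      have hp := rec_p hL n
      rw [← ofReal_pow, hb] at hp
      obtain ⟨h1, h2⟩ := step_sound (cx := s.1) (cy := s.2.1) (r := s.2.2) hs (rec_y hL n) hp h hr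
        hZ ha'
      exact ih hc h1 h2

open Alg in
/-- The starting ball. -/
theorem start {A : ℂ} {B : ℕ} {Z : ℝ} {P Y : ℕ → ℂ} (hL : Lev A B Z P Y) (hB : 6 ≤ B) (hZ : 0 < Z)
    (n : ℕ) (hν : 0 < A.re + n - bb B) {M : ℤ}
    (hM : (A.re + n - bb B) ^ 2 + A.im ^ 2 + bb B ^ 2 ≤ 2 * (A.re + n - bb B) * sr M) :
    ‖pp B P Y n - sc (-M) 0 * Y n‖ ≤ sr M * ‖Y n‖ := by
  have h1 := hL.X_nonpos hB hZ (n + 1) (by rw [← bb]; push_cast; linarith)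
  have h0 := hL.X_nonpos hB hZ n (by rw [← bb]; linarith)
  rw [← X_eq] at h1 h0
  have hp : pp B P Y (n + 1) = aa A B n * pp B P Y n + (bb B : ℂ) ^ 2 * Y n - I * Z * Y (n + 1) := by
    rw [← rec_p hL n]
    ring
  rw [hp, rec_y hL n] at h1
  have hM0 : 0 ≤ sr M := by
    by_contra hneg
    nlinarith [sq_nonneg (A.re + n - bb B), sq_nonneg A.im, sq_nonneg (bb B)]
  have hsc : sc (-M) 0 = -(sr M : ℂ) := by
    apply Complex.ext <;> simp [sc, sr, neg_div]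
  rw [hsc]
  refine norm_le_of_sq (by positivity) ?_
  rw [mul_pow, ← Complex.normSq_eq_norm_sq, Complex.normSq_apply]
  generalize pp B P Y n = p at *
  generalize Y n = y at *
  simp only [mul_re, add_re, sub_re, mul_im, add_im, sub_im, conj_re, conj_im, aa_re, aa_im, I_re,
    I_im, ofReal_re, ofReal_im, neg_re, neg_im, ← ofReal_pow] at h1 h0 ⊢
  generalize A.re + n - bb B = ν at *
  have h2 : ν * (p.re ^ 2 + p.im ^ 2) + (ν ^ 2 + A.im ^ 2 + bb B ^ 2) * (y.re * p.re + y.im * p.im)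
      ≤ 0 := by
    nlinarith [mul_nonneg hν.le (mul_nonneg (sq_nonneg (bb B))
      (add_nonneg (sq_nonneg y.re) (sq_nonneg y.im)))]
  have h3 : y.re * p.re + y.im * p.im ≤ 0 := by linarith
  have h4 : ν * ((p.re ^ 2 + p.im ^ 2) + 2 * sr M * (y.re * p.re + y.im * p.im)) ≤ ν * 0 := by
    nlinarith [mul_le_mul_of_nonpos_right hM h3]
  have h5 := le_of_mul_le_mul_left h4 hν
  nlinarith

end Vale.Agent.P139Z.NumP
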